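import Vale.Agent.P290.H580.OkaTransfer

/-! Invariance of the Oka property under Tate-Shafarevich twists. -/

open Set Filter Metric
open scoped Topology NNReal Manifold ContDiff

namespace Vale.Agent.P290.H580

open Vale.Agent.P290

theorem isTwist_isOka_iff {X Y : K3} (h : IsTwist X Y) : IsOka X.X ↔ IsOka Y.X := by
  obtain ⟨vol, C, π, ρ, hπ, hρ, ⟨T⟩⟩ := h
  have hX := X.isK3
  have hY := Y.isK3
  have m1 : IsManifold 𝓘(ℂ, C2) ω X.X := hX.manifold
  have m2 : IsManifold 𝓘(ℂ, C2) 1 X.X := IsManifold.of_le (n := ω) le_top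
  have m3 : IsManifold 𝓘(ℂ, C2) ω Y.X := hY.manifold
  have m4 : IsManifold 𝓘(ℂ, C2) 1 Y.X := IsManifold.of_le (n := ω) le_top
  have m5 : T2Space X.X := hX.t2
  have m6 : CompactSpace X.X := hX.compact
  have m8 : T2Space Y.X := hY.t2
  have m9 : CompactSpace Y.X := hY.compact
  have m7 : IsManifold 𝓘(ℂ) 1 C.C := IsManifold.of_le (n := ω) le_top
  obtain ⟨S⟩ := T.exists_transfer hπ hρ
  exact ⟨fun h => isOka_transfer h S.symm hρ hπ, fun h => isOka_transfer h S hπ hρ⟩

theorem linked_isOka_iff {X Y : K3} (h : Relation.EqvGen IsTwist X Y) :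
    IsOka X.X ↔ IsOka Y.X := by
  induction h with
  | rel X Y h => exact isTwist_isOka_iff h
  | refl X => exact Iff.rfl
  | symm X Y _ ih => exact ih.symm
  | trans X Y Z _ _ ih1 ih2 => exact ih1.trans ih2

theorem all_isOka_iff {X : Type} [TopologicalSpace X] [ChartedSpace C2 X] :
    All.IsOka X ↔ IsOka X := by
  refine ⟨fun h => ?_, All.isOka_iff⟩
  intro m hm K U hK hKc hKne hU hKU f hf d hd hd0 ε hε
  obtain ⟨F, hF, hFK⟩ := h m K U hm hK hKc hKne hU hKU f
    (fun z hz => All.HolV.of_md ((hf z hz).mdifferentiableAt (hU.mem_nhds hz))) d hd hd0 ε hε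
  exact ⟨F, fun z => (hF z).md, hFK⟩

/-- K3 surfaces linked by a finite chain of Tate-Shafarevich twists are Oka or not Oka
simultaneously. -/
theorem isOka_iff_of_linked {X Z : All.K3}
    (h : Relation.EqvGen (fun X Y => Nonempty (All.Twist X Y)) X Z) :
    All.IsOka X.X ↔ All.IsOka Z.X := by
  rw [all_isOka_iff, all_isOka_iff]
  exact linked_isOka_iff (All.eqvGen_isTwist h)

end Vale.Agent.P290.H580
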