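import Vale.Agent.P290.H580.Stable
import Mathlib.Analysis.SpecialFunctions.Complex.LogBounds

/-! Gluing of frames and sections along perturbed maps, with estimates. -/

open Set Filter Metric
open scoped Topology NNReal Manifold Classical

namespace Vale.Agent.P290.H580

open Vale.Agent.P290 Vale.Agent.P290.K

variable {V : Type} [NormedAddCommGroup V] [NormedSpace ℂ V]
variable {X Y C : Type} [TopologicalSpace X] [ChartedSpace C2 X] [TopologicalSpace Y]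
  [ChartedSpace C2 Y] [TopologicalSpace C] [ChartedSpace ℂ C] {π : X → C} {ρ : Y → C}
  {T : Transfer π ρ}

theorem MS.mul {p : V → C} {u : V → T.A → ℂ} {z : V}
    (hp : MDifferentiableAt 𝓘(ℂ, V) 𝓘(ℂ) p z) (h : MS T p u z) {k : V → ℂ}
    (hk : DifferentiableAt ℂ k z) {v : V → T.A → ℂ}
    (hv : ∀ᶠ y in 𝓝 z, ∀ a, p y ∈ T.O a → v y a = u y a * Complex.exp (k y)) : MS T p v z := by
  intro a ha
  obtain ⟨h1, h2, h3⟩ := h a ha
  have h4 : ∀ᶠ y in 𝓝 z, p y ∈ T.O a :=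
    hp.continuousAt.eventually ((T.isOpen_O a).mem_nhds ha)
  have h5 := hv.self_of_nhds
  refine ⟨?_, ?_, fun b hb => ?_⟩
  · refine (h1.mul hk.cexp).congr_of_eventuallyEq ?_
    filter_upwards [hv, h4] with y e1 e2 using e1 a e2
  · rw [h5 a ha]
    exact mul_ne_zero h2 (Complex.exp_ne_zero _)
  · rw [h5 a ha, h5 b hb, h3 b hb, mul_assoc]

theorem AS.add {p : V → C} {θ u : V → T.A → ℂ} {z : V}
    (hp : MDifferentiableAt 𝓘(ℂ, V) 𝓘(ℂ) p z) (hθ : MS T p θ z) (h : AS T p u z) {k : V → ℂ}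
    (hk : DifferentiableAt ℂ k z) {v : V → T.A → ℂ}
    (hv : ∀ᶠ y in 𝓝 z, ∀ a, p y ∈ T.O a → v y a = u y a + θ y a * k y) : AS T p v z := by
  intro a ha
  obtain ⟨h1, h3⟩ := h a ha
  obtain ⟨t1, t2, t3⟩ := hθ a ha
  have h4 : ∀ᶠ y in 𝓝 z, p y ∈ T.O a :=
    hp.continuousAt.eventually ((T.isOpen_O a).mem_nhds ha)
  have h5 := hv.self_of_nhds
  refine ⟨?_, fun b hb => ?_⟩
  · refine (h1.add (t1.mul hk)).congr_of_eventuallyEq ?_
    filter_upwards [hv, h4] with y e1 e2 using e1 a e2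
  · rw [h5 a ha, h5 b hb, h3 b hb, t3 b hb]
    ring

/-- the quotient of two frames does not depend on the index -/
theorem MS.ratio {p : V → C} {u u' : V → T.A → ℂ} {z : V} (h : MS T p u z) (h' : MS T p u' z)
    {a b : T.A} (ha : p z ∈ T.O a) (hb : p z ∈ T.O b) : u' z a / u z a = u' z b / u z b := by
  obtain ⟨-, h2, h3⟩ := h a ha
  obtain ⟨-, h2', h3'⟩ := h' a ha
  rw [h3 b hb, h3' b hb, mul_div_mul_left _ _ (T.γ_ne a b _ ha hb)]

/-- the quotient of the difference of two sections by a frame does not depend on the index -/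
theorem AS.ratio {p : V → C} {θ u u' : V → T.A → ℂ} {z : V} (hθ : MS T p θ z) (h : AS T p u z)
    (h' : AS T p u' z) {a b : T.A} (ha : p z ∈ T.O a) (hb : p z ∈ T.O b) :
    (u' z a - u z a) / θ z a = (u' z b - u z b) / θ z b := by
  obtain ⟨-, h2, h3⟩ := hθ a ha
  obtain ⟨-, e3⟩ := h a ha
  obtain ⟨-, e3'⟩ := h' a ha
  have : u' z b - u z b = T.γ a b (p z) * (u' z a - u z a) := by
    rw [e3 b hb, e3' b hb]; ring
  rw [this, h3 b hb, mul_div_mul_left _ _ (T.γ_ne a b _ ha hb)]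

theorem close_mul {x t k : ℂ} {δ C ε₁ ε : ℝ} (h1 : ‖x - t‖ < δ) (h2 : ‖t‖ ≤ C) (h3 : δ ≤ 1)
    (h4 : ‖k‖ < ε₁) (h5 : ε₁ ≤ 1) (h6 : 2 * (C + 1) * ε₁ ≤ ε / 2) (h7 : δ ≤ ε / 2) :
    ‖x * Complex.exp k - t‖ < ε := by
  have e1 : x * Complex.exp k - t = x * (Complex.exp k - 1) + (x - t) := by ring
  have e2 : ‖Complex.exp k - 1‖ ≤ 2 * ‖k‖ := Complex.norm_exp_sub_one_le (h4.le.trans h5)
  have e3 : ‖x‖ ≤ C + 1 := by
    have : x = (x - t) + t := by ring
    rw [this]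
    exact (norm_add_le _ _).trans (by linarith)
  have e4 : ‖x * (Complex.exp k - 1)‖ ≤ (C + 1) * (2 * ε₁) := by
    rw [norm_mul]
    exact mul_le_mul e3 (e2.trans (by linarith)) (norm_nonneg _) ((norm_nonneg _).trans e3)
  rw [e1]
  refine (norm_add_le _ _).trans_lt ?_
  nlinarith

theorem log_small {x y t : ℂ} {δ c δ₁ : ℝ} (hc : 0 < c) (h1 : ‖x - t‖ < δ) (h2 : ‖y - t‖ < δ)
    (h3 : c ≤ ‖t‖) (h4 : δ ≤ c / 8) (h5 : δ ≤ c * δ₁ / 6) :
    y / x ∈ Complex.slitPlane ∧ ‖Complex.log (y / x)‖ ≤ δ₁ := by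
  have e1 : c / 2 ≤ ‖x‖ := by
    have : ‖t‖ ≤ ‖x‖ + ‖x - t‖ := by
      have h : t = x - (x - t) := by ring
      calc ‖t‖ = ‖x - (x - t)‖ := by rw [← h]
        _ ≤ _ := norm_sub_le _ _
    linarith
  have hx : 0 < ‖x‖ := by linarith
  have hx0 : x ≠ 0 := norm_pos_iff.1 hx
  have e2 : y / x = 1 + (y - x) / x := by field_simp; ring
  have e3 : ‖y - x‖ ≤ 2 * δ := by
    have : y - x = (y - t) - (x - t) := by ring
    rw [this]
    exact (norm_sub_le _ _).trans (by linarith)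
  have e4 : ‖(y - x) / x‖ ≤ 4 * δ / c := by
    rw [norm_div, div_le_div_iff₀ hx hc]
    have : 0 ≤ δ := (norm_nonneg _).trans h1.le
    nlinarith [norm_nonneg (y - x)]
  have e5 : 4 * δ / c ≤ 1 / 2 := by
    rw [div_le_div_iff₀ hc two_pos]; linarith
  have e6 : ‖(y - x) / x‖ ≤ 1 / 2 := e4.trans e5
  rw [e2]
  refine ⟨Complex.mem_slitPlane_of_norm_lt_one (by linarith), ?_⟩
  refine (Complex.norm_log_one_add_half_le_self e6).trans ?_
  have e7 : 4 * δ / c ≤ 2 / 3 * δ₁ := by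
    rw [div_le_iff₀ hc]; linarith
  linarith

theorem Ref.merge_mul [FiniteDimensional ℂ V] (D : Ref T V) {Q : Set V}
    (hcov : ∀ z ∈ Q, ∃ j, z ∈ D.M j) :
    ∀ A B A' B' : Set V, Good A → Good B → Good A' → Good B' →
      Convex ℝ (A ∪ B) → A ⊆ interior A' → B ⊆ interior B' →
      A' ∪ B' ⊆ Q → ∀ ε > 0, ∃ δ > 0, ∀ (p : V → C) (u u' : V → T.A → ℂ), D.Adm (A' ∪ B') p →
        (∀ᶠ z in 𝓝ˢ A', MS T p u z) → (∀ᶠ z in 𝓝ˢ B', MS T p u' z) →
        (∀ z ∈ A', D.Clθ δ z (u z)) → (∀ z ∈ B', D.Clθ δ z (u' z)) →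
        ∃ v : V → T.A → ℂ, (∀ᶠ z in 𝓝ˢ (A ∪ B), MS T p v z) ∧
          ∀ z ∈ A ∪ B, D.Clθ ε z (v z) := by
  intro A B A' B' gA gB gA' gB' hconv hAA hBB hQ ε hε
  obtain ⟨c, hc, C, hC, hcC⟩ := D.bounds
  set W := interior A' ∩ interior B' with hW
  have hWo : IsOpen W := isOpen_interior.inter isOpen_interior
  have hABW : A ∩ B ⊆ W := fun z hz => ⟨hAA hz.1, hBB hz.2⟩
  set ε₁ := min 1 (ε / (4 * (C + 1))) with hε₁
  have hε₁0 : 0 < ε₁ := by positivity
  have hε₁1 : ε₁ ≤ 1 := min_le_left _ _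
  have hε₁2 : 2 * (C + 1) * ε₁ ≤ ε / 2 := by
    have h1 : ε₁ ≤ ε / (4 * (C + 1)) := min_le_right _ _
    rw [le_div_iff₀ (by positivity)] at h1
    linarith
  obtain ⟨δ₁, hδ₁, hsplit⟩ := split_small gA gB hconv hWo hABW ε₁ hε₁0
  set δ := min (min (c / 8) (c * δ₁ / 6)) (min (ε / 2) 1) with hδ
  have d1 : δ ≤ c / 8 := (min_le_left _ _).trans (min_le_left _ _)
  have d2 : δ ≤ c * δ₁ / 6 := (min_le_left _ _).trans (min_le_right _ _)
  have d3 : δ ≤ ε / 2 := (min_le_right _ _).trans (min_le_left _ _)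
  have d4 : δ ≤ 1 := (min_le_right _ _).trans (min_le_right _ _)
  refine ⟨δ, by positivity, fun p u u' hp hu hu' hcu hcu' => ?_⟩
  have hWA : ∀ z ∈ W, z ∈ A' := fun z hz => interior_subset hz.1
  have hWB : ∀ z ∈ W, z ∈ B' := fun z hz => interior_subset hz.2
  have hpd : ∀ z ∈ A' ∪ B', ∀ᶠ y in 𝓝 z, MDifferentiableAt 𝓘(ℂ, V) 𝓘(ℂ) p y :=
    eventually_nhdsSet_iff_forall.1 hp.1
  set h : V → ℂ := fun z => Complex.log (u' z (T.idx (p z)) / u z (T.idx (p z))) with hh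
  have hb : ∀ z ∈ W, DifferentiableAt ℂ h z ∧ ‖h z‖ ≤ δ₁ ∧
      u' z (T.idx (p z)) / u z (T.idx (p z)) ≠ 0 := by
    intro z hz
    obtain ⟨j, hj⟩ := hcov z (hQ (Or.inl (hWA z hz)))
    have hpj : p z ∈ T.O (D.b j) := hp.2 z (Or.inl (hWA z hz)) j hj
    obtain ⟨l1, l2⟩ := log_small hc (hcu z (hWA z hz) j hj) (hcu' z (hWB z hz) j hj)
      (hcC j z hj).1 d1 d2
    have hz1 : ∀ᶠ y in 𝓝 z, MS T p u y :=
      (eventually_nhdsSet_iff_forall.1 hu) z (hWA z hz)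
    have hz2 : ∀ᶠ y in 𝓝 z, MS T p u' y :=
      (eventually_nhdsSet_iff_forall.1 hu') z (hWB z hz)
    have hz3 : ∀ᶠ y in 𝓝 z, p y ∈ T.O (D.b j) :=
      (hpd z (Or.inl (hWA z hz))).self_of_nhds.continuousAt.eventually
        ((T.isOpen_O _).mem_nhds hpj)
    have hz4 : ∀ᶠ y in 𝓝 z, h y = Complex.log (u' y (D.b j) / u y (D.b j)) := by
      filter_upwards [hz1, hz2, hz3] with y e1 e2 e3
      simp only [hh]
      rw [e1.ratio e2 (T.idx_mem (p y)) e3]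
    have hz5 := hz1.self_of_nhds.ratio hz2.self_of_nhds (T.idx_mem (p z)) hpj
    refine ⟨?_, ?_, ?_⟩
    · refine DifferentiableAt.congr_of_eventuallyEq ?_ hz4
      refine DifferentiableAt.clog ?_ l1
      have k1 := (hz1.self_of_nhds _ hpj).1
      have k2 := (hz2.self_of_nhds _ hpj).1
      have k3 := (hz1.self_of_nhds _ hpj).2.1
      simp only [div_eq_mul_inv]
      exact k2.mul (k1.inv k3)
    · rw [hz4.self_of_nhds]
      exact l2
    · rw [hz5]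
      exact Complex.slitPlane_ne_zero l1
  obtain ⟨h', h'', e1, e2, e3, e4, e5⟩ := hsplit h
    (fun z hz => (hb z hz).1.differentiableWithinAt) (fun z hz => (hb z hz).2.1)
  set vA : V → T.A → ℂ := fun z a => if p z ∈ T.O a then u z a * Complex.exp (h' z) else 0 with hvA
  set vB : V → T.A → ℂ := fun z a => if p z ∈ T.O a then u' z a * Complex.exp (h'' z) else 0
    with hvB
  have mA : 𝓝ˢ A ≤ 𝓝ˢ A' := nhdsSet_mono (hAA.trans interior_subset)
  have mB : 𝓝ˢ B ≤ 𝓝ˢ B' := nhdsSet_mono (hBB.trans interior_subset)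
  have hglue : vA =ᶠ[𝓝ˢ (A ∩ B)] vB := by
    have hWn : ∀ᶠ z in 𝓝ˢ (A ∩ B), z ∈ W := hWo.mem_nhdsSet.2 hABW
    have q1 : ∀ᶠ z in 𝓝ˢ (A ∩ B), MS T p u z :=
      hu.filter_mono ((nhdsSet_mono inter_subset_left).trans mA)
    have q2 : ∀ᶠ z in 𝓝ˢ (A ∩ B), MS T p u' z :=
      hu'.filter_mono ((nhdsSet_mono inter_subset_right).trans mB)
    filter_upwards [e5, hWn, q1, q2] with z k1 k2 k3 k4
    funext a
    simp only [hvA, hvB]
    split_ifs with ha
    · have k5 : Complex.exp (h z) = u' z a / u z a := by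
        rw [hh]
        simp only
        rw [Complex.exp_log (hb z k2).2.2]
        exact k3.ratio k4 (T.idx_mem (p z)) ha
      have k6 : u z a ≠ 0 := (k3 a ha).2.1
      have k7 : Complex.exp (h' z) = Complex.exp (h z) * Complex.exp (h'' z) := by
        rw [← Complex.exp_add, ← k1]; congr 1; ring
      rw [k7, k5]
      field_simp
    · rfl
  obtain ⟨v, hv1, hv2⟩ := exists_glue gA.1 gB.1 vA vB hglue
  have hpA : ∀ᶠ z in 𝓝ˢ A, MDifferentiableAt 𝓘(ℂ, V) 𝓘(ℂ) p z :=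
    hp.1.filter_mono (mA.trans (nhdsSet_mono subset_union_left))
  have hpB : ∀ᶠ z in 𝓝ˢ B, MDifferentiableAt 𝓘(ℂ, V) 𝓘(ℂ) p z :=
    hp.1.filter_mono (mB.trans (nhdsSet_mono subset_union_right))
  refine ⟨v, ?_, ?_⟩
  · rw [nhdsSet_union, eventually_sup]
    constructor
    · filter_upwards [hpA, hu.filter_mono mA, e1, ev_ev_nhdsSet hv1] with z k1 k2 k3 k4
      refine k2.mul k1 k3 ?_
      filter_upwards [k4] with y hy a ha
      rw [hy]
      simp only [hvA]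
      rw [if_pos ha]
    · filter_upwards [hpB, hu'.filter_mono mB, e2, ev_ev_nhdsSet hv2] with z k1 k2 k3 k4
      refine k2.mul k1 k3 ?_
      filter_upwards [k4] with y hy a ha
      rw [hy]
      simp only [hvB]
      rw [if_pos ha]
  · rintro z (hz | hz) j hj
    · have hz' : z ∈ A' := interior_subset (hAA hz)
      have hpj : p z ∈ T.O (D.b j) := hp.2 z (Or.inl hz') j hj
      have k1 : v z = vA z := hv1.self_of_nhdsSet hz
      rw [k1]
      simp only [hvA]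
      rw [if_pos hpj]
      exact close_mul (hcu z hz' j hj) (hcC j z hj).2 d4 (e3 z hz) hε₁1 hε₁2 d3
    · have hz' : z ∈ B' := interior_subset (hBB hz)
      have hpj : p z ∈ T.O (D.b j) := hp.2 z (Or.inr hz') j hj
      have k1 : v z = vB z := hv2.self_of_nhdsSet hz
      rw [k1]
      simp only [hvB]
      rw [if_pos hpj]
      exact close_mul (hcu' z hz' j hj) (hcC j z hj).2 d4 (e4 z hz) hε₁1 hε₁2 d3

end Vale.Agent.P290.H580
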