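import Vale.Agent.P290.H580.Merge

/-! Gluing of sections along perturbed maps, with estimates; the stability theorem. -/

open Set Filter Metric
open scoped Topology NNReal Manifold Classical

namespace Vale.Agent.P290.H580

open Vale.Agent.P290 Vale.Agent.P290.K

variable {V : Type} [NormedAddCommGroup V] [NormedSpace ℂ V]
variable {X Y C : Type} [TopologicalSpace X] [ChartedSpace C2 X] [TopologicalSpace Y]
  [ChartedSpace C2 Y] [TopologicalSpace C] [ChartedSpace ℂ C] {π : X → C} {ρ : Y → C}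
  {T : Transfer π ρ}

/-- admissible perturbations of the pair (map to the base, frame) -/
def Ref.Adm2 (D : Ref T V) (c : ℝ) (S : Set V) (q : (V → C) × (V → T.A → ℂ)) : Prop :=
  D.Adm S q.1 ∧ (∀ᶠ z in 𝓝ˢ S, MS T q.1 q.2 z) ∧ ∀ z ∈ S, D.Clθ c z (q.2 z)

theorem Ref.Adm2.mono {D : Ref T V} {c : ℝ} {S S' : Set V} {q : (V → C) × (V → T.A → ℂ)}
    (hS : S ⊆ S') (h : D.Adm2 c S' q) : D.Adm2 c S q :=
  ⟨h.1.mono hS, h.2.1.filter_mono (nhdsSet_mono hS), fun z hz => h.2.2 z (hS hz)⟩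

theorem quot_small {x y s t : ℂ} {δ c δ₁ : ℝ} (hc : 0 < c) (h1 : ‖x - t‖ < δ) (h2 : ‖y - t‖ < δ)
    (h3 : c / 2 ≤ ‖s‖) (h5 : δ ≤ c * δ₁ / 4) : ‖(y - x) / s‖ ≤ δ₁ := by
  have hs : 0 < ‖s‖ := by linarith
  have e3 : ‖y - x‖ ≤ 2 * δ := by
    have : y - x = (y - t) - (x - t) := by ring
    rw [this]
    exact (norm_sub_le _ _).trans (by linarith)
  rw [norm_div, div_le_iff₀ hs]
  have h6 : 0 ≤ δ := (norm_nonneg _).trans h1.le
  have h7 : 0 ≤ δ₁ := by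
    by_contra hneg
    push Not at hneg
    nlinarith
  nlinarith

theorem Ref.merge_add [FiniteDimensional ℂ V] (D : Ref T V) {Q : Set V}
    (hcov : ∀ z ∈ Q, ∃ j, z ∈ D.M j) {c L : ℝ} (hc : 0 < c)
    (hcC : ∀ j, ∀ z ∈ D.M j, c ≤ ‖D.θ z (D.b j)‖ ∧ ‖D.θ z (D.b j)‖ ≤ L) :
    ∀ A B A' B' : Set V, Good A → Good B → Good A' → Good B' →
      Convex ℝ (A ∪ B) → A ⊆ interior A' → B ⊆ interior B' →
      A' ∪ B' ⊆ Q → ∀ ε > 0, ∃ δ > 0, ∀ (q : (V → C) × (V → T.A → ℂ)) (u u' : V → T.A → ℂ),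
        D.Adm2 (c / 2) (A' ∪ B') q →
        (∀ᶠ z in 𝓝ˢ A', AS T q.1 u z) → (∀ᶠ z in 𝓝ˢ B', AS T q.1 u' z) →
        (∀ z ∈ A', D.Cle δ z (u z)) → (∀ z ∈ B', D.Cle δ z (u' z)) →
        ∃ v : V → T.A → ℂ, (∀ᶠ z in 𝓝ˢ (A ∪ B), AS T q.1 v z) ∧
          ∀ z ∈ A ∪ B, D.Cle ε z (v z) := by
  intro A B A' B' gA gB gA' gB' hconv hAA hBB hQ ε hε
  set W := interior A' ∩ interior B' with hW
  have hWo : IsOpen W := isOpen_interior.inter isOpen_interior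
  have hABW : A ∩ B ⊆ W := fun z hz => ⟨hAA hz.1, hBB hz.2⟩
  set N : ℝ := |L| + c with hN
  have hN0 : 0 < N := by positivity
  set ε₁ := ε / (2 * N) with hε₁
  have hε₁0 : 0 < ε₁ := by positivity
  have hε₁2 : N * ε₁ = ε / 2 := by rw [hε₁]; field_simp
  obtain ⟨δ₁, hδ₁, hsplit⟩ := split_small gA gB hconv hWo hABW ε₁ hε₁0
  set δ := min (c * δ₁ / 4) (ε / 2) with hδ
  have d2 : δ ≤ c * δ₁ / 4 := min_le_left _ _
  have d3 : δ ≤ ε / 2 := min_le_right _ _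
  refine ⟨δ, by positivity, fun q u u' hq hu hu' hcu hcu' => ?_⟩
  obtain ⟨p, θ⟩ := q
  obtain ⟨hp, hθ, hcθ⟩ := hq
  simp only at hp hθ hcθ hu hu' ⊢
  have hWA : ∀ z ∈ W, z ∈ A' := fun z hz => interior_subset hz.1
  have hWB : ∀ z ∈ W, z ∈ B' := fun z hz => interior_subset hz.2
  have hpd : ∀ z ∈ A' ∪ B', ∀ᶠ y in 𝓝 z, MDifferentiableAt 𝓘(ℂ, V) 𝓘(ℂ) p y :=
    eventually_nhdsSet_iff_forall.1 hp.1
  have hθb : ∀ z ∈ A' ∪ B', ∀ j, z ∈ D.M j → c / 2 ≤ ‖θ z (D.b j)‖ ∧ ‖θ z (D.b j)‖ ≤ N := by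
    intro z hz j hj
    have h1 := hcθ z hz j hj
    obtain ⟨h2, h3⟩ := hcC j z hj
    have h4 : ‖D.θ z (D.b j)‖ - ‖θ z (D.b j)‖ ≤ ‖θ z (D.b j) - D.θ z (D.b j)‖ := by
      rw [norm_sub_rev]; exact norm_sub_norm_le _ _
    have h5 : ‖θ z (D.b j)‖ - ‖D.θ z (D.b j)‖ ≤ ‖θ z (D.b j) - D.θ z (D.b j)‖ :=
      norm_sub_norm_le _ _
    have h6 : L ≤ |L| := le_abs_self L
    constructor <;> linarith
  set h : V → ℂ := fun z => (u' z (T.idx (p z)) - u z (T.idx (p z))) / θ z (T.idx (p z)) with hh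
  have hb : ∀ z ∈ W, DifferentiableAt ℂ h z ∧ ‖h z‖ ≤ δ₁ := by
    intro z hz
    obtain ⟨j, hj⟩ := hcov z (hQ (Or.inl (hWA z hz)))
    have hpj : p z ∈ T.O (D.b j) := hp.2 z (Or.inl (hWA z hz)) j hj
    have l1 := quot_small hc (hcu z (hWA z hz) j hj) (hcu' z (hWB z hz) j hj)
      (hθb z (Or.inl (hWA z hz)) j hj).1 d2
    have hz0 : ∀ᶠ y in 𝓝 z, MS T p θ y :=
      (eventually_nhdsSet_iff_forall.1 hθ) z (Or.inl (hWA z hz))
    have hz1 : ∀ᶠ y in 𝓝 z, AS T p u y :=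
      (eventually_nhdsSet_iff_forall.1 hu) z (hWA z hz)
    have hz2 : ∀ᶠ y in 𝓝 z, AS T p u' y :=
      (eventually_nhdsSet_iff_forall.1 hu') z (hWB z hz)
    have hz3 : ∀ᶠ y in 𝓝 z, p y ∈ T.O (D.b j) :=
      (hpd z (Or.inl (hWA z hz))).self_of_nhds.continuousAt.eventually
        ((T.isOpen_O _).mem_nhds hpj)
    have hz4 : ∀ᶠ y in 𝓝 z, h y = (u' y (D.b j) - u y (D.b j)) / θ y (D.b j) := by
      filter_upwards [hz0, hz1, hz2, hz3] with y e0 e1 e2 e3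
      simp only [hh]
      exact e1.ratio e0 e2 (T.idx_mem (p y)) e3
    refine ⟨?_, ?_⟩
    · refine DifferentiableAt.congr_of_eventuallyEq ?_ hz4
      have k1 := (hz1.self_of_nhds _ hpj).1
      have k2 := (hz2.self_of_nhds _ hpj).1
      have k3 := (hz0.self_of_nhds _ hpj).1
      have k4 := (hz0.self_of_nhds _ hpj).2.1
      simp only [div_eq_mul_inv]
      exact (k2.sub k1).mul (k3.inv k4)
    · rw [hz4.self_of_nhds]
      exact l1
  obtain ⟨h', h'', e1, e2, e3, e4, e5⟩ := hsplit h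
    (fun z hz => (hb z hz).1.differentiableWithinAt) (fun z hz => (hb z hz).2)
  set vA : V → T.A → ℂ := fun z a => if p z ∈ T.O a then u z a + θ z a * h' z else 0 with hvA
  set vB : V → T.A → ℂ := fun z a => if p z ∈ T.O a then u' z a + θ z a * h'' z else 0
    with hvB
  have mA : 𝓝ˢ A ≤ 𝓝ˢ A' := nhdsSet_mono (hAA.trans interior_subset)
  have mB : 𝓝ˢ B ≤ 𝓝ˢ B' := nhdsSet_mono (hBB.trans interior_subset)
  have hglue : vA =ᶠ[𝓝ˢ (A ∩ B)] vB := by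
    have q0 : ∀ᶠ z in 𝓝ˢ (A ∩ B), MS T p θ z :=
      hθ.filter_mono (((nhdsSet_mono inter_subset_left).trans mA).trans
        (nhdsSet_mono subset_union_left))
    have q1 : ∀ᶠ z in 𝓝ˢ (A ∩ B), AS T p u z :=
      hu.filter_mono ((nhdsSet_mono inter_subset_left).trans mA)
    have q2 : ∀ᶠ z in 𝓝ˢ (A ∩ B), AS T p u' z :=
      hu'.filter_mono ((nhdsSet_mono inter_subset_right).trans mB)
    filter_upwards [e5, q0, q1, q2] with z k1 k2 k3 k4
    funext a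
    simp only [hvA, hvB]
    split_ifs with ha
    · have k6 : θ z a ≠ 0 := (k2 a ha).2.1
      have k5 : h' z - h'' z = (u' z a - u z a) / θ z a := by
        rw [k1, hh]
        exact k3.ratio k2 k4 (T.idx_mem (p z)) ha
      have k7 : θ z a * (h' z - h'' z) = u' z a - u z a := by
        rw [k5]; field_simp
      linear_combination k7
    · rfl
  obtain ⟨v, hv1, hv2⟩ := exists_glue gA.1 gB.1 vA vB hglue
  have hpA : ∀ᶠ z in 𝓝ˢ A, MDifferentiableAt 𝓘(ℂ, V) 𝓘(ℂ) p z :=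
    hp.1.filter_mono (mA.trans (nhdsSet_mono subset_union_left))
  have hpB : ∀ᶠ z in 𝓝ˢ B, MDifferentiableAt 𝓘(ℂ, V) 𝓘(ℂ) p z :=
    hp.1.filter_mono (mB.trans (nhdsSet_mono subset_union_right))
  have hθA : ∀ᶠ z in 𝓝ˢ A, MS T p θ z :=
    hθ.filter_mono (mA.trans (nhdsSet_mono subset_union_left))
  have hθB : ∀ᶠ z in 𝓝ˢ B, MS T p θ z :=
    hθ.filter_mono (mB.trans (nhdsSet_mono subset_union_right))
  have hcl : ∀ {x t s k : ℂ}, ‖x - t‖ < δ → ‖s‖ ≤ N → ‖k‖ < ε₁ → ‖x + s * k - t‖ < ε := by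
    intro x t s k h1 h2 h3
    have k1 : x + s * k - t = (x - t) + s * k := by ring
    have k2 : ‖s * k‖ ≤ N * ε₁ := by
      rw [norm_mul]
      exact mul_le_mul h2 h3.le (norm_nonneg _) hN0.le
    rw [k1]
    refine (norm_add_le _ _).trans_lt ?_
    linarith
  refine ⟨v, ?_, ?_⟩
  · rw [nhdsSet_union, eventually_sup]
    constructor
    · filter_upwards [hpA, hθA, hu.filter_mono mA, e1, ev_ev_nhdsSet hv1] with z k1 k0 k2 k3 k4
      refine k2.add k1 k0 k3 ?_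
      filter_upwards [k4] with y hy a ha
      rw [hy]
      simp only [hvA]
      rw [if_pos ha]
    · filter_upwards [hpB, hθB, hu'.filter_mono mB, e2, ev_ev_nhdsSet hv2] with z k1 k0 k2 k3 k4
      refine k2.add k1 k0 k3 ?_
      filter_upwards [k4] with y hy a ha
      rw [hy]
      simp only [hvB]
      rw [if_pos ha]
  · rintro z (hz | hz) j hj
    · have hz' : z ∈ A' := interior_subset (hAA hz)
      have hpj : p z ∈ T.O (D.b j) := hp.2 z (Or.inl hz') j hj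
      have k1 : v z = vA z := hv1.self_of_nhdsSet hz
      rw [k1]
      simp only [hvA]
      rw [if_pos hpj]
      exact hcl (hcu z hz' j hj) (hθb z (Or.inl hz') j hj).2 (e3 z hz)
    · have hz' : z ∈ B' := interior_subset (hBB hz)
      have hpj : p z ∈ T.O (D.b j) := hp.2 z (Or.inr hz') j hj
      have k1 : v z = vB z := hv2.self_of_nhdsSet hz
      rw [k1]
      simp only [hvB]
      rw [if_pos hpj]
      exact hcl (hcu' z hz' j hj) (hθb z (Or.inr hz') j hj).2 (e4 z hz)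

end Vale.Agent.P290.H580
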