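import Vale.Agent.P290.H580.Unif

/-! The Oka property is inherited by correspondents. -/

open Set Filter Metric
open scoped Topology NNReal Manifold ContDiff

namespace Vale.Agent.P290.H580

open Vale.Agent.P290 Vale.Agent.P290.K

variable {V : Type} [NormedAddCommGroup V] [NormedSpace ℂ V]
variable {X Y C : Type} [TopologicalSpace X] [ChartedSpace C2 X] [TopologicalSpace Y]
  [ChartedSpace C2 Y] [TopologicalSpace C] [ChartedSpace ℂ C] {π : X → C} {ρ : Y → C}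

theorem ψ'_idx (T : Transfer π ρ) {y : Y} {w : T.A → ℂ}
    (hw : ∀ a, ρ y ∈ T.O a → ∀ b, ρ y ∈ T.O b →
      w b = T.γ a b (ρ y) * w a + T.σ a b (ρ y)) {a : T.A}
    (ha : ρ y ∈ T.O a) : T.ψ' (T.idx (ρ y)) y (w (T.idx (ρ y))) = T.ψ' a y (w a) := by
  have hi := T.idx_mem (ρ y)
  have h1 := T.symm.ψ_trans (T.idx (ρ y)) a y (w (T.idx (ρ y))) hi ha
  change T.ψ' _ _ _ = T.ψ' a _ _ at h1
  rw [h1, hw _ hi a ha]
  rfl

theorem hol_ψ' (T : Transfer π ρ) (hρ : MDifferentiable 𝓘(ℂ, C2) 𝓘(ℂ) ρ) {G : V → Y}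
    {w : V → T.A → ℂ} {z : V} (hG : MDifferentiableAt 𝓘(ℂ, V) 𝓘(ℂ, C2) G z)
    (hw : ∀ᶠ y in 𝓝 z, AS T (fun y => ρ (G y)) w y) :
    MDifferentiableAt 𝓘(ℂ, V) 𝓘(ℂ, C2)
      (fun y => T.ψ' (T.idx (ρ (G y))) (G y) (w y (T.idx (ρ (G y))))) z := by
  have hi := T.idx_mem (ρ (G z))
  have h1 := T.ψ'_hol (T.idx (ρ (G z))) V G (fun y => w y (T.idx (ρ (G z)))) z hG
    (hw.self_of_nhds _ hi).1 hi
  refine h1.congr_of_eventuallyEq ?_
  have hc : ContinuousAt (fun y => ρ (G y)) z := ((hρ (G z)).comp z hG).continuousAt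
  filter_upwards [hw, hc.eventually ((T.isOpen_O _).mem_nhds hi)] with y h2 h3
  exact ψ'_idx T (fun a ha => (h2 a ha).2) h3

variable {T : Transfer π ρ}

/-- approximation of sections by global sections -/
theorem approx_section [FiniteDimensional ℂ V] (D : Ref T V) {K : Set V} (hK : Good K)
    {g' : V → C} (hg' : MDifferentiable 𝓘(ℂ, V) 𝓘(ℂ) g')
    (hb : ∀ z ∈ K, ∀ j, z ∈ D.M j → g' z ∈ T.O (D.b j))
    {e' : V → T.A → ℂ} (he' : ∀ᶠ z in 𝓝ˢ K, AS T g' e' z) {δ : ℝ} (hδ : 0 < δ) :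
    ∃ w : V → T.A → ℂ, (∀ z, AS T g' w z) ∧
      ∀ z ∈ K, ∀ j, z ∈ D.M j → ‖w z (D.b j) - e' z (D.b j)‖ < δ := by
  obtain ⟨e'', he''⟩ := T.exists_aff_global hg'
  obtain ⟨θ, hθ⟩ := T.exists_lin_global hg'
  have hbd : ∃ L : ℝ, 0 < L ∧ ∀ z ∈ K, ∀ j, z ∈ D.M j → ‖θ (D.b j) z‖ ≤ L := by
    have := D.finite
    have h1 : ∀ j, ∃ L : ℝ, ∀ z ∈ K ∩ D.M j, ‖θ (D.b j) z‖ ≤ L := by
      intro j
      have hc : ContinuousOn (fun z => θ (D.b j) z) (K ∩ D.M j) := fun z hz =>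
        ((hθ z _ (hb z hz.1 j hz.2)).1).continuousAt.continuousWithinAt
      exact (hK.1.inter (D.M_comp j)).exists_bound_of_continuousOn hc
    choose L hL using h1
    obtain ⟨B, hB⟩ := (Set.finite_range L).bddAbove
    exact ⟨max B 1, lt_of_lt_of_le one_pos (le_max_right _ _), fun z hz j hj =>
      (hL j z ⟨hz, hj⟩).trans ((hB ⟨j, rfl⟩).trans (le_max_left _ _))⟩
  obtain ⟨L, hL, hLb⟩ := hbd
  have as'' : ∀ z, AS T g' (fun z a => e'' a z) z := he''
  have ms : ∀ z, MS T g' (fun z a => θ a z) z := hθ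
  set h : V → ℂ := fun z => (e' z (T.idx (g' z)) - e'' (T.idx (g' z)) z) / θ (T.idx (g' z)) z
    with hh
  have hhe : ∀ z, AS T g' e' z → ∀ a, g' z ∈ T.O a → h z = (e' z a - e'' a z) / θ a z :=
    fun z hz a ha => (as'' z).ratio (ms z) hz (T.idx_mem _) ha
  have hhol : HolNear K h := by
    filter_upwards [ev_ev_nhdsSet he'] with z hz
    have hi := T.idx_mem (g' z)
    set a := T.idx (g' z) with ha
    have k1 := (hz.self_of_nhds a hi).1
    have k2 := (he'' z a hi).1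
    have k3 := (hθ z a hi).1
    have k4 := (hθ z a hi).2.1
    have k5 : DifferentiableAt ℂ (fun y => (e' y a - e'' a y) / θ a y) z := by
      simp only [div_eq_mul_inv]
      exact (k1.sub k2).mul (k3.inv k4)
    refine k5.congr_of_eventuallyEq ?_
    have k6 : ∀ᶠ y in 𝓝 z, g' y ∈ T.O a :=
      (hg' z).continuousAt.eventually ((T.isOpen_O a).mem_nhds hi)
    filter_upwards [hz, k6] with y e1 e2 using hhe y e1 a e2
  obtain ⟨h', hh', hhc⟩ := okaWeil hK.1 hK.2 hhol (δ / L) (by positivity)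
  refine ⟨fun z a => e'' a z + θ a z * h' z, fun z => (as'' z).add (hg' z) (ms z) (hh' z)
    (Eventually.of_forall fun y a _ => rfl), fun z hz j hj => ?_⟩
  have k1 := hhe z (he'.self_of_nhdsSet z hz) _ (hb z hz j hj)
  have k2 := (hθ z _ (hb z hz j hj)).2.1
  have k3 : e'' (D.b j) z + θ (D.b j) z * h' z - e' z (D.b j) =
      θ (D.b j) z * (h' z - h z) := by
    rw [k1]
    field_simp
    ring
  simp only
  rw [k3, norm_mul]
  have k4 := hhc z hz
  calc ‖θ (D.b j) z‖ * ‖h' z - h z‖ ≤ L * ‖h' z - h z‖ := by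
        exact mul_le_mul_of_nonneg_right (hLb z hz j hj) (norm_nonneg _)
    _ < L * (δ / L) := by exact mul_lt_mul_of_pos_left k4 hL
    _ = δ := by field_simp

/-- The Oka property passes from `Y` to a correspondent `X`. -/
theorem isOka_transfer [T2Space Y] [CompactSpace Y] [IsManifold 𝓘(ℂ, C2) 1 Y]
    (hY : IsOka Y) (T : Transfer π ρ) (hπ : MDifferentiable 𝓘(ℂ, C2) 𝓘(ℂ) π)
    (hρ : MDifferentiable 𝓘(ℂ, C2) 𝓘(ℂ) ρ) : IsOka X := by
  have : SecondCountableTopology Y := ChartedSpace.secondCountable_of_sigmaCompact C2 Y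
  let _ : MetricSpace Y := TopologicalSpace.metrizableSpaceMetric Y
  intro m hm K U hK hKc hne hU hKU f hf d hd hd0 ε hε
  have gK : Good K := ⟨hK, hKc⟩
  have hfU : ∀ z ∈ U, MDifferentiableAt 𝓘(ℂ, Fin m → ℂ) 𝓘(ℂ, C2) f z := fun z hz =>
    (hf z hz).mdifferentiableAt (hU.mem_nhds hz)
  obtain ⟨D, hDg, hDR, r, hr, hcov⟩ := exists_ref T gK (hU.mem_nhdsSet.2 hKU)
    (g := fun z => π (f z)) (fun z hz => (hπ (f z)).comp z (hfU z hz))
  have hg : ∀ z, D.g z = π (f z) := fun z => by rw [hDg]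
  have hAS : ∀ z ∈ D.R, AS T (fun z => π (f z)) D.e z := by
    rw [← hDg]; exact D.e_sol
  -- the transferred map
  set G : (Fin m → ℂ) → Y := fun z => T.ψ (T.idx (π (f z))) (f z) (D.e z (T.idx (π (f z))))
    with hG
  have hGa : ∀ z ∈ D.R, ∀ a, π (f z) ∈ T.O a → G z = T.ψ a (f z) (D.e z a) := fun z hz a ha =>
    ψ'_idx T.symm (y := f z) (w := D.e z) (fun a ha => (hAS z hz a ha).2) ha
  have hGρ : ∀ z ∈ D.R, ρ (G z) = π (f z) := by
    intro z hz
    rw [hGa z hz _ (T.idx_mem _), T.ψ_base _ _ _ (T.idx_mem _)]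
  have hGd : ∀ z ∈ D.R, MDifferentiableAt 𝓘(ℂ, Fin m → ℂ) 𝓘(ℂ, C2) G z := fun z hz =>
    hol_ψ' T.symm hπ (hfU z (hDR hz))
      (by filter_upwards [D.open_R.mem_nhds hz] with y hy using hAS y hy)
  -- the tolerance
  have hKR : ∀ z ∈ K, z ∈ D.R := fun z hz => by
    obtain ⟨j, hj⟩ := hcov z (self_subset_cthickening K hz)
    exact D.M_sub j hj
  have hfin := D.finite
  have htol : ∃ ε' > 0, ∀ j, ∀ z ∈ K ∩ D.M j, ∀ x : Y × ℂ, dist x (G z, D.e z (D.b j)) < ε' →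
      d (T.ψ' (D.b j) x.1 x.2) (f z) < ε := by
    have h1 : ∀ j, ∃ δ > 0, ∀ z ∈ K ∩ D.M j, ∀ x : Y × ℂ, dist x (G z, D.e z (D.b j)) < δ →
        (z, x) ∈ {q : (Fin m → ℂ) × (Y × ℂ) | d (T.ψ' (D.b j) q.2.1 q.2.2) (f q.1) < ε} := by
      intro j
      refine unif_nbhd (hK.inter (D.M_comp j)) (fun z => (G z, D.e z (D.b j)))
        (fun z hz => ?_) _ (fun z hz => ?_)
      · have hb : D.g z ∈ T.O (D.b j) := D.M_mem j z hz.2
        exact (hGd z (hKR z hz.1)).continuousAt.prodMk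
          ((D.e_sol z (hKR z hz.1) _ hb).1).continuousAt
      · have hb : π (f z) ∈ T.O (D.b j) := by rw [← hg]; exact D.M_mem j z hz.2
        have hb' : ρ (G z) ∈ T.O (D.b j) := by rw [hGρ z (hKR z hz.1)]; exact hb
        have c1 : ContinuousAt (fun q : (Fin m → ℂ) × (Y × ℂ) => T.ψ' (D.b j) q.2.1 q.2.2)
            (z, (G z, D.e z (D.b j))) :=
          ContinuousAt.comp (g := fun x : Y × ℂ => T.ψ' (D.b j) x.1 x.2)
            (f := fun q : (Fin m → ℂ) × (Y × ℂ) => q.2) (x := (z, (G z, D.e z (D.b j))))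
            (cont_ψ' T (D.b j) hb' _) continuous_snd.continuousAt
        have c2 : ContinuousAt (fun q : (Fin m → ℂ) × (Y × ℂ) => f q.1)
            (z, (G z, D.e z (D.b j))) :=
          ContinuousAt.comp (g := f) (f := fun q : (Fin m → ℂ) × (Y × ℂ) => q.1)
            (x := (z, (G z, D.e z (D.b j)))) (hfU z (hKU hz.1)).continuousAt
            continuous_fst.continuousAt
        have c3 : ContinuousAt
            (fun q : (Fin m → ℂ) × (Y × ℂ) => d (T.ψ' (D.b j) q.2.1 q.2.2) (f q.1))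
            (z, (G z, D.e z (D.b j))) :=
          ContinuousAt.comp (g := fun p : X × X => d p.1 p.2)
            (f := fun q : (Fin m → ℂ) × (Y × ℂ) => (T.ψ' (D.b j) q.2.1 q.2.2, f q.1))
            (x := (z, (G z, D.e z (D.b j)))) hd.continuousAt (c1.prodMk c2)
        refine c3.eventually_lt_const ?_
        change d (T.ψ' (D.b j) (G z) (D.e z (D.b j))) (f z) < ε
        rw [hGa z (hKR z hz.1) _ hb, T.left_inv _ _ _ hb, hd0]
        exact hε
    choose δ hδ hδ' using h1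
    obtain ⟨ε', hε', hle⟩ := exists_pos_le_all δ hδ
    exact ⟨ε', hε', fun j z hz x hx => hδ' j z hz x (hx.trans_le (hle j))⟩
  obtain ⟨ε', hε', htol⟩ := htol
  obtain ⟨η, hη, hηr, hst⟩ := D.stable gK hr hcov
  obtain ⟨𝒪, o1, o2⟩ := hst (ε' / 2) (by positivity)
  have hcov1 : ∀ z ∈ cthickening η K, ∃ j, z ∈ D.M j := fun z hz =>
    hcov z (cthickening_mono hηr K hz)
  have hK1R : ∀ z ∈ cthickening η K, z ∈ D.R := fun z hz => by
    obtain ⟨j, hj⟩ := hcov1 z hz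
    exact D.M_sub j hj
  obtain ⟨δ₂, hδ₂, hN⟩ := unif_nbhd (K := cthickening η K) hK.cthickening G
    (fun z hz => (hGd z (hK1R z hz)).continuousAt)
    {x : (Fin m → ℂ) × Y | (x.1, ρ x.2) ∈ 𝒪 ∧ ∀ j, x.1 ∈ D.M j → ρ x.2 ∈ T.O (D.b j)}
    (fun z hz => by
      have c1 : ContinuousAt (fun x : (Fin m → ℂ) × Y => (x.1, ρ x.2)) (z, G z) := by
        refine continuous_fst.continuousAt.prodMk ?_
        exact ContinuousAt.comp (g := ρ) (f := fun x : (Fin m → ℂ) × Y => x.2) (x := (z, G z))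
          (hρ (G z)).continuousAt continuous_snd.continuousAt
      have e1 : (z, ρ (G z)) = (z, D.g z) := by rw [hGρ z (hK1R z hz), hg]
      have h1 : ∀ᶠ x in 𝓝 (z, D.g z), x ∈ 𝒪 := o1 z hz
      have h2 : ∀ᶠ x : (Fin m → ℂ) × C in 𝓝 (z, D.g z), ∀ j, x.1 ∈ D.M j → x.2 ∈ T.O (D.b j) := by
        filter_upwards [D.nbhd (T.idx (D.g z)) (T.idx_mem _) (fun _ _ => 0)
          (fun j hj => ⟨continuousAt_const, rfl⟩) one_pos] with x hx j hj
        exact (hx.2 j hj).1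
      rw [← e1] at h1 h2
      exact (c1.eventually h1).and (c1.eventually h2))
  obtain ⟨G', hG'd, hG'c⟩ := hY m hm (cthickening η K) D.R hK.cthickening (hKc.cthickening η)
    (hne.mono (self_subset_cthickening K)) D.open_R hK1R G
    (fun z hz => (hGd z hz).mdifferentiableWithinAt) dist continuous_dist dist_self
    (min δ₂ ε') (lt_min hδ₂ hε')
  have hρG' : MDifferentiable 𝓘(ℂ, Fin m → ℂ) 𝓘(ℂ) (fun z => ρ (G' z)) := fun z =>
    (hρ (G' z)).comp z (hG'd z)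
  have hN' := fun z hz => hN z hz (G' z) ((hG'c z hz).trans_le (min_le_left _ _))
  obtain ⟨e', s1, s2⟩ := o2 (fun z => ρ (G' z))
    ⟨Eventually.of_forall fun z => hρG' z, fun z hz j hj => (hN' z hz).2 j hj⟩
    (fun z hz => (hN' z hz).1)
  have hKK1 : K ⊆ cthickening η K := self_subset_cthickening K
  obtain ⟨w, w1, w2⟩ := approx_section D gK hρG'
    (fun z hz j hj => (hN' z (hKK1 hz)).2 j hj) s1 (half_pos hε')
  refine ⟨fun z => T.ψ' (T.idx (ρ (G' z))) (G' z) (w z (T.idx (ρ (G' z)))), fun z =>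
    hol_ψ' T hρ (hG'd z) (Eventually.of_forall w1), fun z hz => ?_⟩
  obtain ⟨j, hj⟩ := hcov1 z (hKK1 hz)
  have hb : ρ (G' z) ∈ T.O (D.b j) := (hN' z (hKK1 hz)).2 j hj
  have e1 : T.ψ' (T.idx (ρ (G' z))) (G' z) (w z (T.idx (ρ (G' z)))) =
      T.ψ' (D.b j) (G' z) (w z (D.b j)) := ψ'_idx T (fun a ha => (w1 z a ha).2) hb
  simp only
  rw [e1]
  refine htol j z ⟨hz, hj⟩ (G' z, w z (D.b j)) ?_
  rw [Prod.dist_eq]
  refine max_lt ((hG'c z (hKK1 hz)).trans_le (min_le_right _ _)) ?_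
  simp only
  rw [dist_eq_norm]
  have k1 := w2 z hz j hj
  have k2 := s2 z hz j hj
  have k3 : w z (D.b j) - D.e z (D.b j) =
    (w z (D.b j) - e' z (D.b j)) + (e' z (D.b j) - D.e z (D.b j)) := by ring
  rw [k3]
  refine (norm_add_le _ _).trans_lt ?_
  linarith

end Vale.Agent.P290.H580
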