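import Vale.Agent.P290.Bdl.B3

/-! Additive splitting with estimates, and bisecting induction for perturbation problems. -/

open Set Filter Metric
open scoped Topology NNReal

namespace Vale.Agent.P290.H580

open Vale.Agent.P290 Vale.Agent.P290.K

variable {V : Type} [NormedAddCommGroup V] [NormedSpace ℂ V]

/-- Splitting of small holomorphic functions into small holomorphic functions. -/
theorem split_small [FiniteDimensional ℂ V] {A B W : Set V} (hA : Good A) (hB : Good B)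
    (hAB : Convex ℝ (A ∪ B)) (hW : IsOpen W) (hABW : A ∩ B ⊆ W) (ε : ℝ) (hε : 0 < ε) :
    ∃ δ > 0, ∀ h : V → ℂ, DifferentiableOn ℂ h W → (∀ z ∈ W, ‖h z‖ ≤ δ) →
      ∃ h' h'' : V → ℂ, HolNear A h' ∧ HolNear B h'' ∧ (∀ z ∈ A, ‖h' z‖ < ε) ∧
        (∀ z ∈ B, ‖h'' z‖ < ε) ∧ ∀ᶠ z in 𝓝ˢ (A ∩ B), h' z - h'' z = h z := by
  obtain ⟨δ, hδ, key⟩ := ns_path hA hB hAB hW hABW (r := 1) one_pos ε hε
  refine ⟨δ, hδ, fun h hd hb => ?_⟩
  have h0I : (0 : ℝ) ∈ Icc (0 : ℝ) 1 := ⟨le_rfl, zero_le_one⟩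
  have hmaps : MapsTo (fun x : V × C2 => x.1) (W ×ˢ ball (0 : C2) 1) W := fun x hx => hx.1
  have hD : DifferentiableOn ℂ (fun x : V × C2 => ((h x.1, 0) : C2)) (W ×ˢ ball (0 : C2) 1) := by
    refine DifferentiableOn.prodMk ?_ (differentiableOn_const _)
    exact hd.comp (f := fun x : V × C2 => x.1) differentiable_fst.differentiableOn hmaps
  obtain ⟨α, τ, ⟨Uα, hUα, hAU, hαd, -⟩, ⟨Uτ, hUτ, hBU, hτd, -⟩, h1, h2, h3⟩ :=
    key (fun _ x => (h x.1, 0)) (fun s _ => hD)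
      (hD.continuousOn.comp (f := fun x : ℝ × (V × C2) => x.2) continuousOn_snd
        fun x hx => hx.2)
      (fun s _ x hx => by
        have := hb x.1 hx.1
        simpa [Prod.norm_def] using this)
  refine ⟨fun z => (α 0 z).1, fun z => (τ 0 z).1, ?_, ?_, ?_, ?_, ?_⟩
  · filter_upwards [hUα.mem_nhdsSet.2 hAU] with z hz
    exact ((hαd 0 h0I).differentiableAt (hUα.mem_nhds hz)).fst
  · filter_upwards [hUτ.mem_nhdsSet.2 hBU] with z hz
    exact ((hτd 0 h0I).differentiableAt (hUτ.mem_nhds hz)).fst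
  · intro z hz
    exact (norm_fst_le _).trans_lt (h1 0 h0I z hz)
  · intro z hz
    exact (norm_fst_le _).trans_lt (h2 0 h0I z hz)
  · filter_upwards [h3] with z hz
    have := congrArg Prod.fst (hz 0 h0I)
    simpa using this

/-- Bisecting induction: a local perturbation statement with a gluing lemma holds globally, with a
loss of neighbourhoods. -/
theorem perturb [FiniteDimensional ℂ V] {C Pt Φ : Type} [TopologicalSpace C] [Nonempty Φ]
    {K : Set V} (hK : Good K) (gr : Pt → V → C) (g : V → C) (Adm : Set V → Pt → Prop)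
    (hAdm : ∀ S S' p, S ⊆ S' → Adm S' p → Adm S p)
    (Sol : Pt → (V → Φ) → V → Prop) (Cl : ℝ → V → Φ → Prop)
    (hloc : ∀ z₀ ∈ K, ∃ U ∈ 𝓝 z₀, ∀ S, IsCompact S → S ⊆ U → ∀ ε > 0,
      ∃ 𝒪 : Set (V × C), (∀ z ∈ S, 𝒪 ∈ 𝓝 (z, g z)) ∧ ∀ p, Adm S p →
        (∀ z ∈ S, (z, gr p z) ∈ 𝒪) →
          ∃ u : V → Φ, (∀ᶠ z in 𝓝ˢ S, Sol p u z) ∧ ∀ z ∈ S, Cl ε z (u z))
    (hmerge : ∃ η₀ > 0, ∀ A B A' B' : Set V, Good A → Good B → Good A' → Good B' →
      Convex ℝ (A ∪ B) → A ⊆ interior A' → B ⊆ interior B' →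
      A' ∪ B' ⊆ cthickening η₀ K → ∀ ε > 0, ∃ δ > 0, ∀ p u u', Adm (A' ∪ B') p →
        (∀ᶠ z in 𝓝ˢ A', Sol p u z) → (∀ᶠ z in 𝓝ˢ B', Sol p u' z) →
        (∀ z ∈ A', Cl δ z (u z)) → (∀ z ∈ B', Cl δ z (u' z)) →
        ∃ v, (∀ᶠ z in 𝓝ˢ (A ∪ B), Sol p v z) ∧ ∀ z ∈ A ∪ B, Cl ε z (v z)) :
    ∃ η₀ > 0, ∀ η η' : ℝ, 0 ≤ η → η < η' → η' < η₀ → ∀ ε > 0,
      ∃ 𝒪 : Set (V × C), (∀ z ∈ cthickening η' K, 𝒪 ∈ 𝓝 (z, g z)) ∧
        ∀ p, Adm (cthickening η' K) p → (∀ z ∈ cthickening η' K, (z, gr p z) ∈ 𝒪) →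
          ∃ u : V → Φ, (∀ᶠ z in 𝓝ˢ (cthickening η K), Sol p u z) ∧
            ∀ z ∈ cthickening η K, Cl ε z (u z) := by
  have : ProperSpace V := FiniteDimensional.proper ℂ V
  refine hK.bisect (fun T => ∃ η₀ > 0, ∀ η η' : ℝ, 0 ≤ η → η < η' → η' < η₀ → ∀ ε > 0,
      ∃ 𝒪 : Set (V × C), (∀ z ∈ cthickening η' T, 𝒪 ∈ 𝓝 (z, g z)) ∧
        ∀ p, Adm (cthickening η' T) p → (∀ z ∈ cthickening η' T, (z, gr p z) ∈ 𝒪) →
          ∃ u : V → Φ, (∀ᶠ z in 𝓝ˢ (cthickening η T), Sol p u z) ∧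
            ∀ z ∈ cthickening η T, Cl ε z (u z)) ?_ ?_ ?_
  · refine ⟨1, one_pos, fun η η' _ _ _ ε _ => ⟨univ, fun _ _ => univ_mem, fun p _ _ =>
      ⟨fun _ => Classical.arbitrary Φ, ?_, ?_⟩⟩⟩
    · simp only [cthickening_empty, nhdsSet_empty, eventually_bot]
    · intro z hz
      rw [cthickening_empty] at hz
      exact absurd hz (Set.notMem_empty z)
  · intro z₀ hz₀
    obtain ⟨U, hU, h⟩ := hloc z₀ hz₀
    refine ⟨interior U, interior_mem_nhds.2 hU, fun T hT _ hTU => ?_⟩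
    obtain ⟨η₀, hη₀, hsub⟩ := hT.1.exists_cthickening_subset_open isOpen_interior hTU
    refine ⟨η₀, hη₀, fun η η' h0 hlt hlt' ε hε => ?_⟩
    have hsub' : cthickening η' T ⊆ U :=
      (cthickening_mono hlt'.le T).trans (hsub.trans interior_subset)
    obtain ⟨𝒪, h1, h2⟩ := h (cthickening η' T) hT.1.cthickening hsub' ε hε
    refine ⟨𝒪, h1, fun p hp hp' => ?_⟩
    obtain ⟨u, h3, h4⟩ := h2 p hp hp'
    have hm : cthickening η T ⊆ cthickening η' T := cthickening_mono hlt.le T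
    exact ⟨u, h3.filter_mono (nhdsSet_mono hm), fun z hz => h4 z (hm hz)⟩
  · intro T hT hTK l c hP' hP''
    obtain ⟨η₁, hη₁, h1⟩ := hP'
    obtain ⟨η₂, hη₂, h2⟩ := hP''
    obtain ⟨η₃, hη₃, h3⟩ := hmerge
    set T' := T ∩ {x | l x ≤ c} with hT'
    set T'' := T ∩ {x | c ≤ l x} with hT''
    have gT' : Good T' := hT.inter_le l c
    have gT'' : Good T'' := hT.inter_ge l c
    have hun : T' ∪ T'' = T := by
      rw [hT', hT'', ← inter_union_distrib_left]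
      refine inter_eq_left.2 fun x _ => ?_
      exact le_total (l x) c
    have hcth : ∀ r : ℝ, cthickening r T = cthickening r T' ∪ cthickening r T'' := by
      intro r
      rw [← hun, cthickening_union]
    refine ⟨min (min η₁ η₂) η₃, by positivity, fun η η' h0 hlt hlt' ε hε => ?_⟩
    have l1 : η' < η₁ := hlt'.trans_le ((min_le_left _ _).trans (min_le_left _ _))
    have l2 : η' < η₂ := hlt'.trans_le ((min_le_left _ _).trans (min_le_right _ _))
    have l3 : η' < η₃ := hlt'.trans_le (min_le_right _ _)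
    set κ := (η + η') / 2 with hκ
    have k1 : η < κ := by rw [hκ]; linarith
    have k2 : κ < η' := by rw [hκ]; linarith
    have k0 : 0 < κ := h0.trans_lt k1
    have hgood : ∀ (r : ℝ) {S : Set V}, Good S → Good (cthickening r S) := fun r S hS =>
      ⟨hS.1.cthickening, hS.2.cthickening r⟩
    have hint : ∀ S : Set V, cthickening η S ⊆ interior (cthickening κ S) := fun S =>
      (cthickening_subset_thickening' k0 k1 S).trans
        (interior_maximal (thickening_subset_cthickening κ S) isOpen_thickening)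
    obtain ⟨δ, hδ, hm⟩ := h3 (cthickening η T') (cthickening η T'') (cthickening κ T')
      (cthickening κ T'') (hgood _ gT') (hgood _ gT'') (hgood _ gT') (hgood _ gT'')
      (by rw [← hcth]; exact hT.2.cthickening η) (hint _) (hint _)
      (by
        rw [← hcth]
        exact (cthickening_mono (k2.trans l3).le T).trans (cthickening_subset_of_subset η₃ hTK))
      ε hε
    obtain ⟨𝒪₁, o1, q1⟩ := h1 κ η' k0.le k2 l1 δ hδ
    obtain ⟨𝒪₂, o2, q2⟩ := h2 κ η' k0.le k2 l2 δ hδ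
    have aux : ∀ (S : Set V) (𝒪 : Set (V × C)), IsClosed S → ∀ z : V,
        (z ∈ S → 𝒪 ∈ 𝓝 (z, g z)) → {x : V × C | x.1 ∈ S → x ∈ 𝒪} ∈ 𝓝 (z, g z) := by
      intro S 𝒪 hS z h
      by_cases hz : z ∈ S
      · filter_upwards [h hz] with x hx _ using hx
      · have h4 : ∀ᶠ x : V × C in 𝓝 (z, g z), x.1 ∈ Sᶜ :=
          continuous_fst.continuousAt.eventually (hS.isOpen_compl.mem_nhds hz)
        filter_upwards [h4] with x hx hx' using absurd hx' hx
    refine ⟨{x | x.1 ∈ cthickening η' T' → x ∈ 𝒪₁} ∩ {x | x.1 ∈ cthickening η' T'' → x ∈ 𝒪₂},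
      fun z _ => inter_mem (aux _ _ isClosed_cthickening z (o1 z))
        (aux _ _ isClosed_cthickening z (o2 z)), fun p hp hp' => ?_⟩
    have s1 : cthickening η' T' ⊆ cthickening η' T := by rw [hcth]; exact subset_union_left
    have s2 : cthickening η' T'' ⊆ cthickening η' T := by rw [hcth]; exact subset_union_right
    obtain ⟨u, e1, e2⟩ := q1 p (hAdm _ _ p s1 hp) fun z hz => (hp' z (s1 hz)).1 hz
    obtain ⟨u', e1', e2'⟩ := q2 p (hAdm _ _ p s2 hp) fun z hz => (hp' z (s2 hz)).2 hz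
    obtain ⟨v, v1, v2⟩ := hm p u u' (hAdm _ _ p (by
      rw [← hcth]; exact cthickening_mono k2.le T) hp) e1 e1' e2 e2'
    rw [← hcth] at v1 v2
    exact ⟨v, v1, v2⟩

end Vale.Agent.P290.H580
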