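import Vale.Agent.P290.H580.MergeAdd

/-! The stability theorem: sections of an affine line bundle along perturbed maps. -/

open Set Filter Metric
open scoped Topology NNReal Manifold

namespace Vale.Agent.P290.H580

open Vale.Agent.P290 Vale.Agent.P290.K

variable {V : Type} [NormedAddCommGroup V] [NormedSpace ℂ V]
variable {X Y C : Type} [TopologicalSpace X] [ChartedSpace C2 X] [TopologicalSpace Y]
  [ChartedSpace C2 Y] [TopologicalSpace C] [ChartedSpace ℂ C] {π : X → C} {ρ : Y → C}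
  {T : Transfer π ρ}

/-- Sections of the affine bundle survive small perturbations of the map to the base, and stay
close, if one is willing to lose a neighbourhood. -/
theorem Ref.stable [FiniteDimensional ℂ V] (D : Ref T V) {K : Set V} (hK : Good K) {r : ℝ}
    (hr : 0 < r) (hcov : ∀ z ∈ cthickening r K, ∃ j, z ∈ D.M j) :
    ∃ η > 0, η ≤ r ∧ ∀ ε > 0, ∃ 𝒪 : Set (V × C),
      (∀ z ∈ cthickening η K, 𝒪 ∈ 𝓝 (z, D.g z)) ∧
      ∀ p : V → C, D.Adm (cthickening η K) p → (∀ z ∈ cthickening η K, (z, p z) ∈ 𝒪) →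
        ∃ e' : V → T.A → ℂ, (∀ᶠ z in 𝓝ˢ K, AS T p e' z) ∧ ∀ z ∈ K, D.Cle ε z (e' z) := by
  obtain ⟨c, hc, L, hL, hcL⟩ := D.bounds
  have hKR : ∀ z ∈ K, z ∈ D.R := fun z hz => by
    obtain ⟨j, hj⟩ := hcov z (self_subset_cthickening K hz)
    exact D.M_sub j hj
  obtain ⟨η₁, hη₁, h1⟩ := perturb (Φ := T.A → ℂ) hK (fun p : V → C => p) D.g D.Adm
    (fun S S' p hS h => h.mono hS) (MS T) D.Clθ (fun z₀ hz₀ => D.loc_mul (hKR z₀ hz₀))
    ⟨r, hr, D.merge_mul hcov⟩
  obtain ⟨η₂, hη₂, h2⟩ := perturb (Φ := T.A → ℂ) hK (fun q : (V → C) × (V → T.A → ℂ) => q.1) D.g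
    (D.Adm2 (c / 2))
    (fun S S' p hS h => h.mono hS) (fun q => AS T q.1) D.Cle
    (fun z₀ hz₀ => by
      obtain ⟨U, hU, h⟩ := D.loc_add (hKR z₀ hz₀)
      refine ⟨U, hU, fun S hS hSU ε hε => ?_⟩
      obtain ⟨𝒪, o1, o2⟩ := h S hS hSU ε hε
      exact ⟨𝒪, o1, fun q hq hq' => o2 q.1 hq.1 hq'⟩)
    ⟨r, hr, D.merge_add hcov hc hcL⟩
  set m := min (min η₁ η₂) r with hm
  have hm0 : 0 < m := by positivity
  have m1 : m ≤ η₁ := (min_le_left _ _).trans (min_le_left _ _)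
  have m2 : m ≤ η₂ := (min_le_left _ _).trans (min_le_right _ _)
  have m3 : m ≤ r := min_le_right _ _
  refine ⟨m / 2, by positivity, by linarith, fun ε hε => ?_⟩
  obtain ⟨𝒪₂, o2, q2⟩ := h2 0 (m / 4) le_rfl (by positivity) (by linarith) ε hε
  obtain ⟨𝒪₁, o1, q1⟩ := h1 (m / 4) (m / 2) (by positivity) (by linarith) (by linarith) (c / 2)
    (by positivity)
  have hsub : cthickening (m / 4) K ⊆ cthickening (m / 2) K := cthickening_mono (by linarith) K
  refine ⟨𝒪₁ ∩ {x | x.1 ∈ cthickening (m / 4) K → x ∈ 𝒪₂}, fun z hz => ?_, fun p hp hp' => ?_⟩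
  · refine inter_mem (o1 z hz) ?_
    by_cases hz2 : z ∈ cthickening (m / 4) K
    · filter_upwards [o2 z hz2] with x hx _ using hx
    · have h4 : ∀ᶠ x : V × C in 𝓝 (z, D.g z), x.1 ∈ (cthickening (m / 4) K)ᶜ :=
        continuous_fst.continuousAt.eventually
          (isClosed_cthickening.isOpen_compl.mem_nhds hz2)
      filter_upwards [h4] with x hx hx' using absurd hx' hx
  · obtain ⟨θ', t1, t2⟩ := q1 p hp fun z hz => (hp' z hz).1
    obtain ⟨e', s1, s2⟩ := q2 (p, θ') ⟨hp.mono hsub, t1, t2⟩ fun z hz => (hp' z (hsub hz)).2 hz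
    have hK0 : cthickening 0 K = K := by
      rw [cthickening_zero, hK.1.isClosed.closure_eq]
    rw [hK0] at s1 s2
    exact ⟨e', s1, s2⟩

end Vale.Agent.P290.H580
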