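import Vale.Agent.P290.H580.Split

/-! Stability of frames of a line bundle along perturbed maps to the base. -/

open Set Filter Metric
open scoped Topology NNReal Manifold

namespace Vale.Agent.P290.H580

open Vale.Agent.P290

variable {V : Type} [NormedAddCommGroup V] [NormedSpace ℂ V]
variable {X Y C : Type} [TopologicalSpace X] [ChartedSpace C2 X] [TopologicalSpace Y]
  [ChartedSpace C2 Y] [TopologicalSpace C] [ChartedSpace ℂ C] {π : X → C} {ρ : Y → C}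

/-- `u` is a frame of the line bundle along `p` at `z` -/
def MS (T : Transfer π ρ) (p : V → C) (u : V → T.A → ℂ) (z : V) : Prop :=
  ∀ a, p z ∈ T.O a → DifferentiableAt ℂ (fun z => u z a) z ∧ u z a ≠ 0 ∧
    ∀ b, p z ∈ T.O b → u z b = T.γ a b (p z) * u z a

/-- `u` is a section of the affine bundle along `p` at `z` -/
def AS (T : Transfer π ρ) (p : V → C) (u : V → T.A → ℂ) (z : V) : Prop :=
  ∀ a, p z ∈ T.O a → DifferentiableAt ℂ (fun z => u z a) z ∧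
    ∀ b, p z ∈ T.O b → u z b = T.γ a b (p z) * u z a + T.σ a b (p z)

/-- The reference data: a map `g` to the base, a frame `θ` and a section `e` along `g` over the open
set `R`, and finitely many compact sets `M j` in which indices `b j` are chosen. -/
structure Ref (T : Transfer π ρ) (V : Type) [NormedAddCommGroup V] [NormedSpace ℂ V] where
  g : V → C
  θ : V → T.A → ℂ
  e : V → T.A → ℂ
  R : Set V
  J : Type
  finite : Finite J
  M : J → Set V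
  b : J → T.A
  open_R : IsOpen R
  g_hol : ∀ z ∈ R, MDifferentiableAt 𝓘(ℂ, V) 𝓘(ℂ) g z
  θ_sol : ∀ z ∈ R, MS T g θ z
  e_sol : ∀ z ∈ R, AS T g e z
  M_comp : ∀ j, IsCompact (M j)
  M_sub : ∀ j, M j ⊆ R
  M_mem : ∀ j, ∀ z ∈ M j, g z ∈ T.O (b j)

variable {T : Transfer π ρ}

/-- admissible perturbations of `g` over `S` -/
def Ref.Adm (D : Ref T V) (S : Set V) (p : V → C) : Prop :=
  (∀ᶠ z in 𝓝ˢ S, MDifferentiableAt 𝓘(ℂ, V) 𝓘(ℂ) p z) ∧
    ∀ z ∈ S, ∀ j, z ∈ D.M j → p z ∈ T.O (D.b j)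

theorem Ref.Adm.mono {D : Ref T V} {S S' : Set V} {p : V → C} (hS : S ⊆ S') (h : D.Adm S' p) :
    D.Adm S p :=
  ⟨h.1.filter_mono (nhdsSet_mono hS), fun z hz => h.2 z (hS hz)⟩

/-- closeness of frames -/
def Ref.Clθ (D : Ref T V) (ε : ℝ) (z : V) (x : T.A → ℂ) : Prop :=
  ∀ j, z ∈ D.M j → ‖x (D.b j) - D.θ z (D.b j)‖ < ε

/-- closeness of sections -/
def Ref.Cle (D : Ref T V) (ε : ℝ) (z : V) (x : T.A → ℂ) : Prop :=
  ∀ j, z ∈ D.M j → ‖x (D.b j) - D.e z (D.b j)‖ < ε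

/-- bounds for the frame -/
theorem Ref.bounds (D : Ref T V) : ∃ c > 0, ∃ C : ℝ, 0 < C ∧ ∀ j, ∀ z ∈ D.M j,
    c ≤ ‖D.θ z (D.b j)‖ ∧ ‖D.θ z (D.b j)‖ ≤ C := by
  have := D.finite
  have key : ∀ j, ∃ c > 0, ∀ z ∈ D.M j, c ≤ ‖D.θ z (D.b j)‖ ∧ ‖D.θ z (D.b j)‖ ≤ c⁻¹ := by
    intro j
    have hc : ContinuousOn (fun z => ‖D.θ z (D.b j)‖) (D.M j) := fun z hz =>
      (((D.θ_sol z (D.M_sub j hz) (D.b j) (D.M_mem j z hz)).1).continuousAt.norm).continuousWithinAt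
    rcases (D.M j).eq_empty_or_nonempty with h | h
    · exact ⟨1, one_pos, fun z hz => by rw [h] at hz; exact absurd hz (Set.notMem_empty z)⟩
    · obtain ⟨z1, hz1, h1⟩ := (D.M_comp j).exists_isMinOn h hc
      obtain ⟨z2, hz2, h2⟩ := (D.M_comp j).exists_isMaxOn h hc
      have p1 : 0 < ‖D.θ z1 (D.b j)‖ := norm_pos_iff.2
        (D.θ_sol z1 (D.M_sub j hz1) (D.b j) (D.M_mem j z1 hz1)).2.1
      have p2 : 0 < ‖D.θ z2 (D.b j)‖ := norm_pos_iff.2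
        (D.θ_sol z2 (D.M_sub j hz2) (D.b j) (D.M_mem j z2 hz2)).2.1
      refine ⟨min ‖D.θ z1 (D.b j)‖ ‖D.θ z2 (D.b j)‖⁻¹, lt_min p1 (inv_pos.2 p2), fun z hz =>
        ⟨(min_le_left _ _).trans (h1 hz), ?_⟩⟩
      refine (h2 hz).trans ?_
      change ‖D.θ z2 (D.b j)‖ ≤ _
      rw [le_inv_comm₀ p2 (lt_min p1 (inv_pos.2 p2))]
      exact min_le_right _ _
  choose c hc hcb using key
  obtain ⟨B, hB⟩ := (Set.finite_range fun j => (c j)⁻¹).bddAbove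
  have hB' : ∀ j, (c j)⁻¹ ≤ max B 1 := fun j => (hB ⟨j, rfl⟩).trans (le_max_left _ _)
  have hpos : (0 : ℝ) < max B 1 := lt_of_lt_of_le one_pos (le_max_right _ _)
  refine ⟨(max B 1)⁻¹, inv_pos.2 hpos, max B 1, hpos, fun j z hz => ⟨?_, ?_⟩⟩
  · refine le_trans ?_ (hcb j z hz).1
    rw [inv_le_comm₀ hpos (hc j)]
    exact hB' j
  · exact (hcb j z hz).2.trans (hB' j)

/-- neighbourhoods of the graph given by conditions on the pieces -/
theorem Ref.nbhd (D : Ref T V) (a : T.A) {z : V} (hz : D.g z ∈ T.O a) (Ξ : D.J → V × C → ℂ)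
    (hΞ : ∀ j, z ∈ D.M j → ContinuousAt (Ξ j) (z, D.g z) ∧ Ξ j (z, D.g z) = 0) {ε : ℝ}
    (hε : 0 < ε) :
    {x : V × C | x.2 ∈ T.O a ∧ ∀ j, x.1 ∈ D.M j → x.2 ∈ T.O (D.b j) ∧ ‖Ξ j x‖ < ε} ∈
      𝓝 (z, D.g z) := by
  have := D.finite
  have h1 : ∀ᶠ x : V × C in 𝓝 (z, D.g z), x.2 ∈ T.O a :=
    continuous_snd.continuousAt.eventually ((T.isOpen_O a).mem_nhds hz)
  have h2 : ∀ᶠ x : V × C in 𝓝 (z, D.g z), ∀ j, x.1 ∈ D.M j → x.2 ∈ T.O (D.b j) ∧ ‖Ξ j x‖ < ε := by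
    rw [eventually_all]
    intro j
    by_cases hj : z ∈ D.M j
    · obtain ⟨h3, h4⟩ := hΞ j hj
      have h5 : ∀ᶠ x : V × C in 𝓝 (z, D.g z), x.2 ∈ T.O (D.b j) :=
        continuous_snd.continuousAt.eventually ((T.isOpen_O _).mem_nhds (D.M_mem j z hj))
      have h6 : ∀ᶠ x : V × C in 𝓝 (z, D.g z), ‖Ξ j x‖ < ε := by
        refine h3.norm.eventually_lt_const ?_
        change ‖Ξ j (z, D.g z)‖ < ε
        rw [h4, norm_zero]
        exact hε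
      filter_upwards [h5, h6] with x h7 h8 _ using ⟨h7, h8⟩
    · have h5 : ∀ᶠ x : V × C in 𝓝 (z, D.g z), x.1 ∈ (D.M j)ᶜ :=
        continuous_fst.continuousAt.eventually ((D.M_comp j).isClosed.isOpen_compl.mem_nhds hj)
      filter_upwards [h5] with x hx hx' using absurd hx' hx
  exact h1.and h2

theorem Ref.near_index (D : Ref T V) (a : T.A) {S : Set V} {p : V → C}
    (hp : ∀ᶠ z in 𝓝ˢ S, MDifferentiableAt 𝓘(ℂ, V) 𝓘(ℂ) p z) (hS : S ⊆ D.R ∩ D.g ⁻¹' (T.O a))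
    (hpS : ∀ z ∈ S, p z ∈ T.O a) :
    ∀ᶠ z in 𝓝ˢ S, MDifferentiableAt 𝓘(ℂ, V) 𝓘(ℂ) p z ∧ p z ∈ T.O a ∧ z ∈ D.R ∧
      D.g z ∈ T.O a := by
  refine hp.and ?_
  rw [eventually_nhdsSet_iff_forall] at hp ⊢
  intro z hz
  have h1 : ∀ᶠ y in 𝓝 z, p y ∈ T.O a :=
    (hp z hz).self_of_nhds.continuousAt.eventually ((T.isOpen_O a).mem_nhds (hpS z hz))
  have h2 : ∀ᶠ y in 𝓝 z, y ∈ D.R := D.open_R.mem_nhds (hS hz).1
  have h3 : ∀ᶠ y in 𝓝 z, D.g y ∈ T.O a :=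
    (D.g_hol z (hS hz).1).continuousAt.eventually ((T.isOpen_O a).mem_nhds (hS hz).2)
  filter_upwards [h1, h2, h3] with y e1 e2 e3 using ⟨e1, e2, e3⟩

theorem Ref.loc_mul (D : Ref T V) {z₀ : V} (hz₀ : z₀ ∈ D.R) :
    ∃ U ∈ 𝓝 z₀, ∀ S, IsCompact S → S ⊆ U → ∀ ε > 0,
      ∃ 𝒪 : Set (V × C), (∀ z ∈ S, 𝒪 ∈ 𝓝 (z, D.g z)) ∧ ∀ p, D.Adm S p →
        (∀ z ∈ S, (z, p z) ∈ 𝒪) →
          ∃ u : V → T.A → ℂ, (∀ᶠ z in 𝓝ˢ S, MS T p u z) ∧ ∀ z ∈ S, D.Clθ ε z (u z) := by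
  obtain ⟨a, ha⟩ := T.cover (D.g z₀)
  refine ⟨D.R ∩ D.g ⁻¹' (T.O a), inter_mem (D.open_R.mem_nhds hz₀)
    ((D.g_hol z₀ hz₀).continuousAt ((T.isOpen_O a).mem_nhds ha)), fun S hSc hSU ε hε => ?_⟩
  refine ⟨_, fun z hz => D.nbhd a (hSU hz).2
    (fun j x => T.γ a (D.b j) x.2 * D.θ x.1 a - D.θ x.1 (D.b j)) (fun j hj => ?_) hε, ?_⟩
  · have h1 := D.θ_sol z (hSU hz).1
    obtain ⟨h2, -, h3⟩ := h1 a (hSU hz).2
    obtain ⟨h4, -, -⟩ := h1 (D.b j) (D.M_mem j z hj)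
    refine ⟨?_, ?_⟩
    · have h5 : ContinuousAt (T.γ a (D.b j)) (D.g z) :=
        (T.γ_hol a (D.b j) _ (hSU hz).2 (D.M_mem j z hj)).continuousAt
      refine ContinuousAt.sub (ContinuousAt.mul ?_ ?_) ?_
      · exact ContinuousAt.comp (g := T.γ a (D.b j)) (f := fun x : V × C => x.2)
          (x := (z, D.g z)) h5 continuous_snd.continuousAt
      · exact ContinuousAt.comp (g := fun z => D.θ z a) (f := fun x : V × C => x.1)
          (x := (z, D.g z)) h2.continuousAt continuous_fst.continuousAt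
      · exact ContinuousAt.comp (g := fun z => D.θ z (D.b j)) (f := fun x : V × C => x.1)
          (x := (z, D.g z)) h4.continuousAt continuous_fst.continuousAt
    · simp only
      rw [h3 _ (D.M_mem j z hj), sub_self]
  · intro p hp hpO
    refine ⟨fun z b => T.γ a b (p z) * D.θ z a, ?_, ?_⟩
    · filter_upwards [D.near_index a hp.1 hSU fun z hz => (hpO z hz).1] with z hz
      obtain ⟨e1, e2, e3, e4⟩ := hz
      obtain ⟨h2, h2', -⟩ := D.θ_sol z e3 a e4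
      intro b hb
      refine ⟨(Transfer.diff_comp (T.γ_hol a b _ e2 hb) e1).mul h2,
        mul_ne_zero (T.γ_ne a b _ e2 hb) h2', fun d hd => ?_⟩
      simp only
      rw [T.γ_coc a b d _ e2 hb hd, mul_assoc]
    · intro z hz j hj
      exact ((hpO z hz).2 j hj).2

theorem Ref.loc_add (D : Ref T V) {z₀ : V} (hz₀ : z₀ ∈ D.R) :
    ∃ U ∈ 𝓝 z₀, ∀ S, IsCompact S → S ⊆ U → ∀ ε > 0,
      ∃ 𝒪 : Set (V × C), (∀ z ∈ S, 𝒪 ∈ 𝓝 (z, D.g z)) ∧ ∀ p, D.Adm S p →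
        (∀ z ∈ S, (z, p z) ∈ 𝒪) →
          ∃ u : V → T.A → ℂ, (∀ᶠ z in 𝓝ˢ S, AS T p u z) ∧ ∀ z ∈ S, D.Cle ε z (u z) := by
  obtain ⟨a, ha⟩ := T.cover (D.g z₀)
  refine ⟨D.R ∩ D.g ⁻¹' (T.O a), inter_mem (D.open_R.mem_nhds hz₀)
    ((D.g_hol z₀ hz₀).continuousAt ((T.isOpen_O a).mem_nhds ha)), fun S hSc hSU ε hε => ?_⟩
  refine ⟨_, fun z hz => D.nbhd a (hSU hz).2
    (fun j x => T.γ a (D.b j) x.2 * D.e x.1 a + T.σ a (D.b j) x.2 - D.e x.1 (D.b j))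
    (fun j hj => ?_) hε, ?_⟩
  · have h1 := D.e_sol z (hSU hz).1
    obtain ⟨h2, h3⟩ := h1 a (hSU hz).2
    obtain ⟨h4, -⟩ := h1 (D.b j) (D.M_mem j z hj)
    refine ⟨?_, ?_⟩
    · have h5 : ContinuousAt (T.γ a (D.b j)) (D.g z) :=
        (T.γ_hol a (D.b j) _ (hSU hz).2 (D.M_mem j z hj)).continuousAt
      have h6 : ContinuousAt (T.σ a (D.b j)) (D.g z) :=
        (T.σ_hol a (D.b j) _ (hSU hz).2 (D.M_mem j z hj)).continuousAt
      refine ContinuousAt.sub (ContinuousAt.add (ContinuousAt.mul ?_ ?_) ?_) ?_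
      · exact ContinuousAt.comp (g := T.γ a (D.b j)) (f := fun x : V × C => x.2)
          (x := (z, D.g z)) h5 continuous_snd.continuousAt
      · exact ContinuousAt.comp (g := fun z => D.e z a) (f := fun x : V × C => x.1)
          (x := (z, D.g z)) h2.continuousAt continuous_fst.continuousAt
      · exact ContinuousAt.comp (g := T.σ a (D.b j)) (f := fun x : V × C => x.2)
          (x := (z, D.g z)) h6 continuous_snd.continuousAt
      · exact ContinuousAt.comp (g := fun z => D.e z (D.b j)) (f := fun x : V × C => x.1)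
          (x := (z, D.g z)) h4.continuousAt continuous_fst.continuousAt
    · simp only
      rw [h3 _ (D.M_mem j z hj), sub_self]
  · intro p hp hpO
    refine ⟨fun z b => T.γ a b (p z) * D.e z a + T.σ a b (p z), ?_, ?_⟩
    · filter_upwards [D.near_index a hp.1 hSU fun z hz => (hpO z hz).1] with z hz
      obtain ⟨e1, e2, e3, e4⟩ := hz
      obtain ⟨h2, -⟩ := D.e_sol z e3 a e4
      intro b hb
      refine ⟨((Transfer.diff_comp (T.γ_hol a b _ e2 hb) e1).mul h2).add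
        (Transfer.diff_comp (T.σ_hol a b _ e2 hb) e1), fun d hd => ?_⟩
      simp only
      rw [T.γ_coc a b d _ e2 hb hd, T.σ_coc a b d _ e2 hb hd]
      ring
    · intro z hz j hj
      exact ((hpO z hz).2 j hj).2

end Vale.Agent.P290.H580
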