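import Vale.Agent.P290.H580.Stability

/-! Preparations for the transfer of the Oka property. -/

open Set Filter Metric
open scoped Topology NNReal Manifold ContDiff

namespace Vale.Agent.P290.H580

open Vale.Agent.P290 Vale.Agent.P290.K

/-- a neighbourhood of a graph over a compact set contains a uniform one -/
theorem unif_nbhd {V P : Type} [TopologicalSpace V] [PseudoMetricSpace P] {K : Set V}
    (hK : IsCompact K) (c : V → P) (hc : ∀ z ∈ K, ContinuousAt c z) (N : Set (V × P))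
    (hN : ∀ z ∈ K, N ∈ 𝓝 (z, c z)) :
    ∃ δ > 0, ∀ z ∈ K, ∀ x, dist x (c z) < δ → (z, x) ∈ N := by
  refine hK.induction_on (p := fun S => ∃ δ > 0, ∀ z ∈ S, ∀ x, dist x (c z) < δ → (z, x) ∈ N)
    ⟨1, one_pos, fun z hz => absurd hz (Set.notMem_empty z)⟩ ?_ ?_ ?_
  · rintro s t hst ⟨δ, hδ, h⟩
    exact ⟨δ, hδ, fun z hz => h z (hst hz)⟩
  · rintro s t ⟨δ, hδ, h⟩ ⟨δ', hδ', h'⟩
    refine ⟨min δ δ', lt_min hδ hδ', ?_⟩
    rintro z (hz | hz) x hx
    · exact h z hz x (hx.trans_le (min_le_left _ _))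
    · exact h' z hz x (hx.trans_le (min_le_right _ _))
  · intro z₀ hz₀
    obtain ⟨U, hU, W, hW, hUW⟩ := mem_nhds_prod_iff.1 (hN z₀ hz₀)
    obtain ⟨δ, hδ, hδW⟩ := Metric.mem_nhds_iff.1 hW
    have h1 : ∀ᶠ z in 𝓝 z₀, dist (c z) (c z₀) < δ / 2 :=
      (hc z₀ hz₀).eventually (Metric.ball_mem_nhds _ (by positivity))
    refine ⟨U ∩ {z | dist (c z) (c z₀) < δ / 2}, mem_nhdsWithin_of_mem_nhds (inter_mem hU h1),
      δ / 2, by positivity, fun z hz x hx => hUW ⟨hz.1, hδW ?_⟩⟩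
    have h2 : dist (c z) (c z₀) < δ / 2 := hz.2
    rw [Metric.mem_ball]
    calc dist x (c z₀) ≤ dist x (c z) + dist (c z) (c z₀) := dist_triangle _ _ _
      _ < δ := by linarith

theorem exists_pos_le_all {J : Type} [Finite J] (f : J → ℝ) (hf : ∀ j, 0 < f j) :
    ∃ ε > 0, ∀ j, ε ≤ f j := by
  rcases isEmpty_or_nonempty J with h | h
  · exact ⟨1, one_pos, fun j => isEmptyElim j⟩
  · obtain ⟨j, hj⟩ := Finite.exists_min f
    exact ⟨f j, hf j, hj⟩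

variable {V : Type} [NormedAddCommGroup V] [NormedSpace ℂ V]
variable {X Y C : Type} [TopologicalSpace X] [ChartedSpace C2 X] [TopologicalSpace Y]
  [ChartedSpace C2 Y] [TopologicalSpace C] [ChartedSpace ℂ C] {π : X → C} {ρ : Y → C}
  {T : Transfer π ρ}

/-- joint continuity of the inverse correspondence -/
theorem cont_ψ' [IsManifold 𝓘(ℂ, C2) 1 Y] (T : Transfer π ρ) (a : T.A) {y₀ : Y}
    (hy₀ : ρ y₀ ∈ T.O a) (w₀ : ℂ) :
    ContinuousAt (fun x : Y × ℂ => T.ψ' a x.1 x.2) (y₀, w₀) := by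
  set e := chartAt C2 y₀ with he
  have hsrc : y₀ ∈ e.source := mem_chart_source C2 y₀
  have htgt : e y₀ ∈ e.target := e.map_source hsrc
  have hsymm : MDifferentiableAt 𝓘(ℂ, C2) 𝓘(ℂ, C2) e.symm (e y₀) :=
    mdifferentiableAt_atlas_symm (chart_mem_atlas C2 y₀) htgt
  have hG : MDifferentiableAt 𝓘(ℂ, C2 × ℂ) 𝓘(ℂ, C2) (fun x : C2 × ℂ => e.symm x.1) (e y₀, w₀) := by
    have hfst : MDifferentiableAt 𝓘(ℂ, C2 × ℂ) 𝓘(ℂ, C2) (fun p : C2 × ℂ => p.1) (e y₀, w₀) := by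
      apply DifferentiableAt.mdifferentiableAt
      exact differentiableAt_fst
    exact MDifferentiableAt.comp (g := e.symm) (f := fun p : C2 × ℂ => p.1) (e y₀, w₀) hsymm hfst
  have h1 := (T.ψ'_hol a (C2 × ℂ) (fun x => e.symm x.1) (fun x => x.2) (e y₀, w₀) hG
    differentiableAt_snd (by simp only; rwa [e.left_inv hsrc])).continuousAt
  have h2 : ContinuousAt (fun x : Y × ℂ => (e x.1, x.2)) (y₀, w₀) := by
    refine ContinuousAt.prodMk ?_ continuous_snd.continuousAt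
    exact ContinuousAt.comp (g := e) (f := fun x : Y × ℂ => x.1) (x := (y₀, w₀))
      (e.continuousAt hsrc) continuous_fst.continuousAt
  have h3 : ContinuousAt (fun x : Y × ℂ => T.ψ' a (e.symm (e x.1)) x.2) (y₀, w₀) :=
    ContinuousAt.comp (g := fun x : C2 × ℂ => T.ψ' a (e.symm x.1) x.2)
      (f := fun x : Y × ℂ => (e x.1, x.2)) (x := (y₀, w₀)) h1 h2
  refine h3.congr ?_
  have h4 : ∀ᶠ x : Y × ℂ in 𝓝 (y₀, w₀), x.1 ∈ e.source :=
    continuous_fst.continuousAt.eventually (e.open_source.mem_nhds hsrc)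
  filter_upwards [h4] with x hx
  rw [e.left_inv hx]

/-- frames along a map from a convex set to the base -/
theorem exists_lin [FiniteDimensional ℂ V] (T : Transfer π ρ) {Q : Set V} (hQ : Good Q)
    {g : V → C} (hg : ∀ᶠ z in 𝓝ˢ Q, MDifferentiableAt 𝓘(ℂ, V) 𝓘(ℂ) g z) :
    ∃ θ : V → T.A → ℂ, ∀ᶠ z in 𝓝ˢ Q, MS T g θ z := by
  obtain ⟨R, hRo, hQR, hR⟩ := mem_nhdsSet_iff_exists.1 hg
  have hgc : ContinuousOn g R := fun z hz => (hR hz).continuousAt.continuousWithinAt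
  obtain ⟨e, he⟩ := hQ.cousin2 (fun a => R ∩ g ⁻¹' (T.O a))
    (fun a => hgc.isOpen_inter_preimage hRo (T.isOpen_O a))
    (fun z hz => by
      obtain ⟨a, ha⟩ := T.cover (g z)
      exact mem_iUnion.2 ⟨a, hQR hz, ha⟩)
    (fun a b z => T.γ a b (g z))
    (fun a b z hz => ⟨Transfer.diff_comp (T.γ_hol a b _ hz.1.2 hz.2.2) (hR hz.1.1),
      T.γ_ne a b _ hz.1.2 hz.2.2⟩)
    (fun a b c z hz => T.γ_coc a b c _ hz.1.1.2 hz.1.2.2 hz.2.2)
  have hRn : ∀ᶠ z in 𝓝ˢ Q, z ∈ R := mem_nhdsSet_iff_exists.2 ⟨R, hRo, hQR, fun x hx => hx⟩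
  refine ⟨fun z a => e a z, ?_⟩
  filter_upwards [he, hRn] with z h1 h2 a ha
  exact ⟨(h1 a ⟨h2, ha⟩).1, (h1 a ⟨h2, ha⟩).2.1, fun b hb => (h1 a ⟨h2, ha⟩).2.2 b ⟨h2, hb⟩⟩

/-- Reference data along a map to the base which is holomorphic near a compact convex set. -/
theorem exists_ref [FiniteDimensional ℂ V] (T : Transfer π ρ) {K : Set V} (hK : Good K)
    {g : V → C} {R₀ : Set V} (hR₀ : R₀ ∈ 𝓝ˢ K)
    (hg : ∀ z ∈ R₀, MDifferentiableAt 𝓘(ℂ, V) 𝓘(ℂ) g z) :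
    ∃ D : Ref T V, D.g = g ∧ D.R ⊆ R₀ ∧ ∃ r > 0, ∀ z ∈ cthickening r K, ∃ j, z ∈ D.M j := by
  classical
  have : ProperSpace V := FiniteDimensional.proper ℂ V
  have hg' : ∀ᶠ z in 𝓝ˢ K, MDifferentiableAt 𝓘(ℂ, V) 𝓘(ℂ) g z := by
    filter_upwards [hR₀] with z hz using hg z hz
  obtain ⟨θ, hθ⟩ := exists_lin T hK hg'
  obtain ⟨e, he⟩ := T.exists_aff hK hg'
  have he' : ∀ᶠ z in 𝓝ˢ K, AS T g (fun z a => e a z) z := he
  obtain ⟨R, hRo, hKR, hR⟩ := mem_nhdsSet_iff_exists.1 (inter_mem hR₀ (hθ.and he'))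
  have hgc : ContinuousOn g R := fun z hz =>
    (hg z (hR hz).1).continuousAt.continuousWithinAt
  have hex : ∀ z ∈ K, ∃ s > 0, closedBall z s ⊆ R ∩ g ⁻¹' (T.O (T.idx (g z))) := by
    intro z hz
    have h1 : R ∩ g ⁻¹' (T.O (T.idx (g z))) ∈ 𝓝 z :=
      (hgc.isOpen_inter_preimage hRo (T.isOpen_O _)).mem_nhds ⟨hKR hz, T.idx_mem (g z)⟩
    obtain ⟨s, hs, hsub⟩ := Metric.nhds_basis_closedBall.mem_iff.1 h1
    exact ⟨s, hs, hsub⟩
  choose! s hs hsub using hex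
  obtain ⟨t, htK, hcov⟩ := hK.1.elim_nhds_subcover (fun z => ball z (s z))
    (fun z hz => ball_mem_nhds z (hs z hz))
  obtain ⟨r, hr, hrsub⟩ := hK.1.exists_cthickening_subset_open
    (isOpen_biUnion fun z (_ : z ∈ t) => isOpen_ball) hcov
  refine ⟨{ g := g, θ := θ, e := fun z a => e a z, R := R, J := t, finite := inferInstance,
            M := fun j => closedBall j.1 (s j.1), b := fun j => T.idx (g j.1), open_R := hRo,
            g_hol := fun z hz => hg z (hR hz).1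
            θ_sol := fun z hz => (hR hz).2.1
            e_sol := fun z hz => (hR hz).2.2
            M_comp := fun j => isCompact_closedBall _ _
            M_sub := fun j z hz => (hsub j.1 (htK j.1 j.2) hz).1
            M_mem := fun j z hz => (hsub j.1 (htK j.1 j.2) hz).2 }, rfl,
    fun z hz => (hR hz).1, r, hr, fun z hz => ?_⟩
  obtain ⟨i, hi, hzi⟩ := mem_iUnion₂.1 (hrsub hz)
  exact ⟨⟨i, hi⟩, ball_subset_closedBall hzi⟩

end Vale.Agent.P290.H580
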